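import Crest.Agent.X212.Cg28.Defs

/-!
# Row 212, CG / JC (helper9): the base of a knot datum and the junction of a cosmetic pair
-/

set_option autoImplicit false
set_option linter.unusedSectionVars false

open Set Filter Topology Function
open scoped ContDiff Manifold
open Crest.Agent.X212.Rod53 Crest.Agent.X212.Orx52 Crest.Agent.X212.Cg28 Crest.Agent.X212.Cyl58
open Crest.Agent.X212.Glue52 Crest.Agent.X212.Dr59 Crest.Agent.X212.Int54
open Crest.GeometryTopology.DehnSurgery Crest.Agent.R208.F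

noncomputable section

namespace Crest.Agent.X212.Lft9

open Classical in
/-- the base of a knot datum -/
def bs (k : Ext52.KD) : Bs where
  N := S3
  T := ofTube k.toTube
  θ x := if h : x ∈ k.toTube.Ext then k.θ ⟨x, h⟩ else 1
  sm q hq := Glue52.contMDiffAt_of_comp
    (ld_val k.toTube.Ext ⟨q, ((ofFill k.toTube ⟨0, 1, 1, 0, by simp⟩).hW q).2 hq⟩)
    ((k.smθ _).congr_of_eventuallyEq (Eventually.of_forall fun y => dif_pos y.2))
  θτ w h := (dif_pos (k.toTube.τ_mem_Ext.2 h)).trans (k.θτ ⟨w, h⟩)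
  o := oS k.toTube
  ori := oriOn (ori_oS _) _
  pos := pos_τ _ _

theorem pos_add (d : ℝ) : Pos 𝓘(ℝ, ℝ) 𝓘(ℝ, ℝ) (· + d) univ oR oR :=
  pos_of_eq (oriOn ori_oR _) (c := fun _ => 1) (fun _ _ => one_pos) fun y _ => by
    rw [one_smul, pm_oR (g := (· + d)) ((addD d).contMDiff.mdifferentiableAt (by simp))]
    exact (df_add contMDiffAt_id contMDiffAt_const).trans
      (by rw [df_eq_zero (g := fun _ => d) EventuallyEq.rfl, add_zero]; rfl)

theorem tpos_shiftC {V W : Type} [NormedAddCommGroup V] [NormedSpace ℝ V] [FiniteDimensional ℝ V]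
    [NormedAddCommGroup W] [NormedSpace ℝ W] [FiniteDimensional ℝ W] {M : TP V} {Y : Pc W}
    [CompactSpace Y.M] [T2Space Y.M] [SecondCountableTopology Y.M] [Nonempty Y.M] {J : Set ℝ}
    {k : TIso (cylT Y) M J} (hJ : IsOpen J) {a : Y.M → Ext Y.E} (ha : Ori Y.I a)
    {o : M.P.M → Ext M.P.E} (h : TPos k (pr a oR) o) (d : ℝ) : TPos (k.shiftC hJ d) (pr a oR) o :=
  Pos.comp (I := M.P.I) (J := Y.I.prod 𝓘(ℝ, ℝ)) (K := Y.I.prod 𝓘(ℝ, ℝ))
    (f := fun z : Y.M × ℝ => k z) (s := Prod.snd ⁻¹' J) (t := {z | z.2 - d ∈ J})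
    (g := Prod.map id (· + -d)) h (((pos_id.2 (oriOn ha univ).same).prodMap
    (pos_add (-d)) (fun y _ => Glue52.ld_id y) fun z _ => (addD _).isLocalDiffeomorph z).mono
      fun _ _ => ⟨trivial, trivial⟩) (fun _ => k.ld)
    (fun z _ => ld_prodMap_at (Glue52.ld_id z.1) ((addD _).isLocalDiffeomorph z.2)) fun _ h => h

theorem cop {L : ℕ} (c : Ch L) {i p q : ℤ} (h : c.a i = (q, p)) : IsCoprime p q := by
  obtain ⟨b, hb⟩ := c.isWd.prim i
  have := hb.sq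
  rw [h] at this
  exact ⟨-(dt (q, p) b * b.1), dt (q, p) b * b.2, by rw [← this]; simp only [dt]; ring⟩

/-- **JC** -/
theorem jc : JcStmt := fun k => ⟨bs k, fun _ _ => Hz56.h1_S3, fun p q₀ q₁ L c h0 h1 h => by
  obtain ⟨σ₀, a0, b0⟩ := Nrm38.exists_data (cop c h0)
  obtain ⟨σ₁, a1, b1⟩ := Nrm38.exists_data (cop c h1)
  obtain ⟨f, hf⟩ := h σ₁ σ₀ a1 b1 a0 b0
  let Y : FillingData → Pc E3 := fun σ =>
    Pc.of (𝓡 3) (Ext52.Fill k.toTube σ) (ContinuousLinearEquiv.refl ℝ _)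
  have j0 : Ioo (0 : ℝ) 1 ⊆ Jr c.v (sa σ₀) := fun x hx => by
    rw [sa, a0, b0, ← h0]
    exact c.lo_Jr (show x < 2 by linarith [hx.2])
  have j1 : Ioo (L : ℝ) (L + 1) ⊆ Jr c.v (sa σ₁) := fun x hx => by
    have : (c.n : ℝ) + 2 ≤ L := by exact_mod_cast c.le
    rw [sa, a1, b1, ← h1]
    exact c.hi_Jr (show _ < x by linarith [hx.1])
  have e : {t : ℝ | t - L ∈ Ioo (0 : ℝ) 1} = Ioo (L : ℝ) (L + 1) := by
    ext t; simp [sub_lt_iff_lt_add']
  let k0 := (ofFill k.toTube σ₀).tiso (Y := Y σ₀) c.loc (uni_s σ₀) isOpen_Ioo j0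
  have p0 : TPos k0 _ _ := ((bs k).ox c).tiso (Y := Y σ₀) _ _ _ _ j0 (ori_oF _ _) (pos_ie _ _)
  let j := junc ((ofFill k.toTube σ₁).tiso (Y := Y σ₁) c.loc (uni_s σ₁) isOpen_Ioo j1)
    ((k0.shiftC isOpen_Ioo L).cast e) f isOpen_Ioo
  refine ⟨j.φ, j.src, j.tgt.trans ?_, fun x hx => eq_sub_of_add_eq (j.tm x (j.src.le hx)), j.src ▸ ?_⟩
  · ext x
    exact (Set.ext_iff.1 e _).symm.trans (by simp [TP.shift, Tb.tp]; rfl)
  · refine tpos_junc isOpen_Ioo (((bs k).ox c).tiso (Y := Y σ₁) _ _ _ _ j1 (ori_oF _ _) (pos_ie _ _))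
      (TPos.cast ?_ e) (pos_of_posD hf)
    exact tpos_shiftC isOpen_Ioo (ori_oF _ _) p0 L⟩

end Crest.Agent.X212.Lft9
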