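import Crest.Agent.X212.Cg28.Defs
import Crest.Agent.X212.Hz56.Inst

/-!
# Row 212, CG / LIFT (helper9): the junction lifts to the cyclic cover
-/

set_option autoImplicit false
set_option linter.unusedSectionVars false

open Set Filter Topology Function
open scoped ContDiff Manifold
open Crest.Agent.X212.Rod53 Crest.Agent.X212.Orx52 Crest.Agent.X212.Cg28 Crest.Agent.X212.Hz56
open Crest.Agent.X212.Lev33

noncomputable section

namespace Crest.Agent.X212.Lft9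

section alg

variable {X : Type*} [TopologicalSpace X] {G : Type*} [CommGroup G] {S : Set X} {c c' : X → X → G}

theorem coc_mul (h : Coc S c) (h' : Coc S c') : Coc S (c * c') := fun x hx => by
  filter_upwards [h x hx, h' x hx] with y y1 y2
  filter_upwards [y1, y2] with z z1 z2
  simp only [Pi.mul_apply, z1, z2, mul_mul_mul_comm]

theorem prim_mul {b b' : X → G} (h : Prim S c b) (h' : Prim S c' b') : Prim S (c * c') (b * b') :=
  fun x hx => by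
    filter_upwards [h x hx, h' x hx] with y y1 y2
    simp only [Pi.mul_apply, y1, y2, mul_mul_mul_comm]

theorem tr_div (h : Tr S (c * c')) (h' : Tr S c') : Tr S c := by
  obtain ⟨b, hb⟩ := h
  obtain ⟨b', hb'⟩ := h'
  refine ⟨b / b', fun x hx => ?_⟩
  filter_upwards [hb x hx, hb' x hx] with y y1 y2
  simp only [Pi.div_apply, y1, y2, Pi.mul_apply, ← mul_assoc, mul_div_mul_right_eq_div,
    div_mul_eq_mul_div]

theorem hol_mul {d d' : Circle → Circle → G} {m m' : G} (h : IsHol d m) (h' : IsHol d' m') :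
    IsHol (d * d') (m * m') :=
  let ⟨_, h1, h2⟩ := h
  let ⟨_, h3, h4⟩ := h'
  ⟨_, prim_mul h1 h3, fun t => by simp only [Pi.mul_apply, h2, h4, mul_mul_mul_comm]⟩

theorem hol_pow (m : G) (p : ℕ) : IsHol (pb (· ^ p) (cir m)) (m ^ p) :=
  ⟨_, ((prim_cir m).comp (f := fun t : ℝ => p * t) (by fun_prop) (mapsTo_univ _ univ)).congr
    (geq_of_eq fun x _ y _ => by simp only [pb, Circle.exp_natCast_mul]), fun t => by
      have := floor_shift (p * t) p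
      simp only [Int.cast_natCast] at this
      simp only [mul_add, this, zpow_add, zpow_natCast]⟩

end alg

variable {B' B : Bs} {p : ℕ} {π : B'.N → B.N} {L : ℕ} {c' c : Ch L} {P : B'.X c' → B.X c}
  {dk : Circle → B'.X c' → B'.X c'}

theorem maps_Ex (h : Br B' B p π) : MapsTo π B'.T.Ex B.T.Ex := fun q hq => by
  by_cases k : q ∈ range B'.T.τ
  · obtain ⟨w, rfl⟩ := k
    rw [h.tube]
    exact B.T.τ_mem.2 (gl_ne.2 (B'.T.τ_mem.1 hq))
  · exact B.T.mem_Ex_of (h.far q k)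

/-- cocycles of exponent `p` on the exterior become trivial on the cover -/
theorem tr_cover (h : Br B' B p π) {G : Type} [CommGroup G] (h1 : H1 G (univ : Set B.N))
    (hG : ∀ m : G, m ^ p = 1) {e : B.N → B.N → G} (he : Coc B.T.Ex e) : Tr B'.T.Ex (pb π e) := by
  have cθ : ∀ B : Bs, ContinuousOn B.θ B.T.Ex := fun B q hq =>
    (B.sm q hq).continuousAt.continuousWithinAt
  have cπ : ContinuousOn π B'.T.Ex := fun q hq =>
    (h.ld q hq).contMDiffAt.continuousAt.continuousWithinAt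
  have oe := B.T.oe.isOpenEmbedding
  have dc : ∀ x : Circle, Glue52.dir x = x := fun x => by simpa using Glue52.dir_mul one_pos x
  obtain ⟨m, hm⟩ := exists_hol (he.comp (f := fun x : Circle => B.T.τ (1, x))
    (oe.continuous.comp (by fun_prop)).continuousOn fun x _ => B.T.τ_mem.2 x.coe_ne_zero)
  have h2 := tr_tube oe h1 (coc_mul he ((coc_cir m⁻¹).comp (cθ B) (mapsTo_univ _ _)))
    ((mul_inv_cancel m ▸ hol_mul hm (isHol_cir m⁻¹)).congr fun x y => by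
      simp only [Pi.mul_apply, pb, B.θτ (1, (x : ℂ)) x.coe_ne_zero, B.θτ (1, (y : ℂ)) y.coe_ne_zero,
        dc]).tr
  refine tr_div (c' := pb π (pb B.θ (cir m⁻¹))) (h2.comp cπ (maps_Ex h)) ?_
  exact ((hG m⁻¹ ▸ hol_pow m⁻¹ p).tr.comp (cθ B') (mapsTo_univ _ _)).congr
    (geq_of_eq fun x hx y hy => by simp only [pb, h.ang x hx, h.ang y hy])

/-- uniqueness of local lifts -/
theorem uniq (h : Cv c' c p π P dk) {Y : Type*} {l : Filter Y} {s t : Y → B'.X c'} {x : B'.X c'}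
    (hx : x ∈ B'.A c') (hs : Tendsto s l (𝓝 x)) (ht : Tendsto t l (𝓝 x))
    (e : ∀ᶠ y in l, P (s y) = P (t y)) : ∀ᶠ y in l, s y = t y := by
  obtain ⟨Φ, h1, h2⟩ := h.ld x hx
  filter_upwards [hs (Φ.open_source.mem_nhds h1), ht (Φ.open_source.mem_nhds h1), e] with y y1 y2 y3
  exact Φ.injOn y1 y2 (by rwa [← h2 y1, ← h2 y2])

theorem dk_at (h : Cv c' c p π P dk) {μ : Circle} (hμ : μ ^ p = 1) {x : B'.X c'} (hx : x ∈ B'.A c') :
    ContinuousAt (dk μ) x := (h.dk_cont μ hμ).continuousAt ((B'.isOpen_A c').mem_nhds hx)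

theorem dk_inv (h : Cv c' c p π P dk) {μ : Circle} (hμ : μ ^ p = 1) {x : B'.X c'} (hx : x ∈ B'.A c') :
    dk μ (dk μ⁻¹ x) = x := by
  obtain ⟨ν, ⟨h1, h2⟩, h3⟩ := h.dk_fib x hx x hx rfl
  have := h3 (ν * ν) ⟨by rw [mul_pow, h1, one_mul], by rw [h.dk_mul ν ν h1 h1 x hx, h2, h2]⟩
  rw [← h.dk_mul μ _ hμ (by rw [inv_pow, hμ, inv_one]) x hx, mul_inv_cancel, ← mul_eq_left.1 this, h2]

theorem pre_win (B : Bs) (c : Ch L) (J : Set ℝ) :
    B.tm c ⁻¹' J ∩ off B.T c.v = B.T.ext c.v '' (B.T.Ex ×ˢ J) := by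
  ext x
  constructor
  · rintro ⟨h1, q, h2, rfl⟩
    exact ⟨q, ⟨h2.1, by rwa [mem_preimage, Bs.tm, B.T.time_ext h2.1] at h1⟩, rfl⟩
  · rintro ⟨q, h2, rfl⟩
    exact ⟨by rw [mem_preimage, Bs.tm, B.T.time_ext h2.1]; exact h2.2, q, ⟨h2.1, trivial⟩, rfl⟩

theorem conn_win (B : Bs) (c : Ch L) {J : Set ℝ} (hJ : IsOpen J) (cJ : Convex ℝ J) :
    IsPreconnected (B.tm c ⁻¹' J) :=
  (pre_win B c J ▸ (B.T.isPreconnected_Ex.prod cJ.isPreconnected).image _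
    ((continuousOn_ext B.T).mono (prod_mono Subset.rfl (subset_univ _)))).subset_closure
    inter_subset_left ((dense_off B.T).open_subset_closure_inter (hJ.preimage B.T.continuous_time))

/-- a map covering the identity is a deck transformation -/
theorem deck (h : Cv c' c p π P dk) {W : Set (B'.X c')} (hW : IsPreconnected W) (hA : W ⊆ B'.A c')
    {k : B'.X c' → B'.X c'} (hk : ContinuousOn k W) (e : ∀ x ∈ W, k x ∈ B'.A c' ∧ P (k x) = P x) :
    ∃ μ, μ ^ p = 1 ∧ ∀ x ∈ W, k x = dk μ x := by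
  choose! μ h1 h2 using fun x hx => h.dk_fib x (hA hx) _ (e x hx).1 (e x hx).2.symm
  have h3 : LCo W μ := fun x hx => by
    filter_upwards [uniq h (e x hx).1 (hk x hx) ((h1 x hx).2 ▸
      (dk_at h (h1 x hx).1 (hA hx)).continuousWithinAt.tendsto) (eventually_nhdsWithin_of_forall
        fun y hy => (e y hy).2.trans (h.dk_mem _ (h1 x hx).1 y (hA hy)).2.symm),
      self_mem_nhdsWithin] with y y1 y2
    exact (h2 y y2 _ ⟨(h1 x hx).1, y1.symm⟩).symm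
  rcases W.eq_empty_or_nonempty with rfl | ⟨x, hx⟩
  · exact ⟨1, one_pow p, fun _ h => h.elim⟩
  · exact ⟨μ x, (h1 x hx).1, fun y hy => by rw [h3.eq hW hx hy, (h1 y hy).2]⟩

/-- lifting over a window -/
theorem lift1 (hp : 0 < p) (hbr : Br B' B p π) (h1 : ∀ (G : Type) [Group G], H1 G (univ : Set B.N))
    (h : Cv c' c p π P dk) {J : Set ℝ} (hJ : IsOpen J) (cJ : Convex ℝ J) {t : ℝ} (ht : t ∈ J)
    (hA : B'.tm c' ⁻¹' J ⊆ B'.A c') {f : B.X c → B.X c} (hf : ContinuousOn f (B.tm c ⁻¹' J))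
    (hm : MapsTo f (B.tm c ⁻¹' J) (B.A c)) : ∃ f' : B'.X c' → B'.X c',
      ContinuousOn f' (B'.tm c' ⁻¹' J) ∧ ∀ x ∈ B'.tm c' ⁻¹' J, f' x ∈ B'.A c' ∧ P (f' x) = f (P x) := by
  classical
  let G := (powMonoidHom p : Circle →* Circle).ker
  have hG : ∀ μ : G, (μ : Circle) ^ p = 1 := fun μ => μ.2
  have oA := B'.isOpen_A c'
  let act : G → B'.X c' → B'.X c' := fun μ x => if x ∈ B'.A c' then dk μ x else x
  have a1 : ∀ μ, ∀ x ∈ B'.A c', act μ x = dk μ x := fun μ x hx => if_pos hx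
  have hm' : ∀ μ ν x, act (μ * ν) x = act μ (act ν x) := fun μ ν x => by
    by_cases hx : x ∈ B'.A c'
    · rw [a1 _ _ hx, a1 _ _ hx, a1 _ _ (h.dk_mem _ (hG ν) x hx).1, ← h.dk_mul _ _ (hG μ) (hG ν) x hx]
      rfl
    · simp only [act, if_neg hx]
  obtain ⟨s, d, d1, d2, d3⟩ := exists_coc (S := B.tm c ⁻¹' J) act hm'
    (Gd := fun x s => ContinuousWithinAt s (B.tm c ⁻¹' J) x ∧ s x ∈ B'.A c' ∧
      ∀ᶠ y in 𝓝[B.tm c ⁻¹' J] x, P (s y) = f y)
    (fun x hx => by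
      obtain ⟨e, e1, e2⟩ := nonempty_of_ncard_ne_zero ((h.card _ (hm hx)).trans_ne hp.ne')
      obtain ⟨φ, h1, h2⟩ := h.ld e e1
      have h4 : φ e = f x := (h2 h1).symm.trans e2
      have h3 : ∀ᶠ y in 𝓝[B.tm c ⁻¹' J] x, f y ∈ φ.target ∩ φ.symm ⁻¹' B'.A c' :=
        hf x hx ((φ.toOpenPartialHomeomorph.isOpen_inter_preimage_symm oA).mem_nhds
          (h4 ▸ ⟨φ.map_source h1, show φ.symm (φ e) ∈ _ from (φ.left_inv h1).symm ▸ e1⟩))
      refine ⟨φ.symm ∘ f, ?_⟩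
      filter_upwards [h3, eventually_eventually_nhdsWithin.2 h3, self_mem_nhdsWithin] with y y1 y2 y3
      exact ⟨(φ.toOpenPartialHomeomorph.continuousAt_symm y1.1).comp_continuousWithinAt (hf y y3),
        y1.2, y2.mono fun z hz => (h2 (φ.map_target hz.1)).trans (φ.right_inv hz.1)⟩)
    (fun x hx s t hs ht => by
      obtain ⟨μ, ⟨m1, m2⟩, -⟩ := h.dk_fib _ hs.2.1 _ ht.2.1
        ((hs.2.2.self_of_nhdsWithin hx).trans (ht.2.2.self_of_nhdsWithin hx).symm)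
      have a := hs.1.tendsto.eventually (oA.mem_nhds hs.2.1)
      refine ⟨⟨μ, m1⟩, ((uniq h ht.2.1 ht.1 (m2 ▸ (dk_at h m1 hs.2.1).tendsto.comp hs.1) ?_).and a).mono
        fun y hy => hy.1.trans (a1 ⟨μ, m1⟩ _ hy.2).symm⟩
      filter_upwards [a, hs.2.2, ht.2.2] with y y1 y2 y3
      rw [y3, ← y2]
      exact (h.dk_mem μ m1 _ y1).2.symm)
    (fun x _ s μ ν hs e => by
      rw [a1 _ _ hs.2.1, a1 _ _ hs.2.1] at e
      have a := h.dk_mem _ (hG ν) _ hs.2.1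
      exact Subtype.ext ((h.dk_fib _ hs.2.1 _ a.1 a.2.symm).unique ⟨hG μ, e⟩ ⟨hG ν, rfl⟩))
  have cP : ContinuousOn P (B'.tm c' ⁻¹' J) := fun x hx =>
    (h.ld x (hA hx)).contMDiffAt.continuousAt.continuousWithinAt
  have mP : MapsTo P (B'.tm c' ⁻¹' J) (B.tm c ⁻¹' J) := fun x hx => by
    rwa [mem_preimage, h.tm x (hA hx)]
  have ce : ∀ (B : Bs) (c : Ch L), ContinuousOn (B.T.ext c.v) (B.T.Ex ×ˢ J) ∧
      MapsTo (B.T.ext c.v) (B.T.Ex ×ˢ J) (B.tm c ⁻¹' J) := fun B c =>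
    ⟨(continuousOn_ext B.T).mono (prod_mono Subset.rfl (subset_univ _)), fun q hq =>
      ((pre_win B c J).ge ⟨q, hq, rfl⟩).1⟩
  obtain ⟨b, hb⟩ : Tr (B'.tm c' ⁻¹' J) (pb P d) := by
    refine tr_of_off B'.T (hJ.preimage B'.T.continuous_time) (d1.comp cP mP) ?_
    have sub : B'.T.Ex ×ˢ J ⊆ (B'.T.ext c'.v).source := prod_mono Subset.rfl (subset_univ _)
    refine (pre_win B' c' J).symm ▸ (op_of_pd (B'.T.ext c'.v).toOpenPartialHomeomorph sub).tr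
      ((B'.T.ext c'.v).injOn.mono sub) (tr_prod_star (cJ.starConvex ht)
        ((d1.comp cP mP).comp (ce B' c').1 (ce B' c').2) ?_)
    exact (tr_cover hbr (h1 G) (fun m => Subtype.ext (hG m)) ((d1.comp (ce B c).1 (ce B c).2).comp
      (f := fun q => (q, t)) (by fun_prop) fun q hq => ⟨hq, ht⟩)).congr
      (geq_of_eq fun x hx y hy => (congrArg₂ d (h.ext x hx t) (h.ext y hy t)).symm)
  have g1 := fun x hx => (d2 (P x) (mP hx)).self_of_nhdsWithin (mP (x := x) hx)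
  refine ⟨fun y => act (b y) (s (P y) (P y)), fun x hx => ?_, fun x hx => ?_⟩
  · have a := (g1 x hx).1.comp (cP x hx) mP
    refine ((dk_at h (hG (b x)) (g1 x hx).2.1).comp_continuousWithinAt (f := s (P x) ∘ P) a
      ).congr_of_eventuallyEq ?_ (a1 _ _ (g1 x hx).2.1)
    filter_upwards [hb x hx, ((cP x hx).tendsto_nhdsWithin mP).eventually (d3 _ (mP hx)),
      a.tendsto.eventually (oA.mem_nhds (g1 x hx).2.1)] with y y1 y2 y3
    rw [y1, hm', ← y2]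
    exact a1 _ _ y3
  · have a := h.dk_mem _ (hG (b x)) _ (g1 x hx).2.1
    beta_reduce
    rw [a1 _ _ (g1 x hx).2.1]
    exact ⟨a.1, a.2.trans ((g1 x hx).2.2.self_of_nhdsWithin (mP hx))⟩

/-- **LIFT** -/
theorem lift : LiftStmt := fun B' B p π hp hbr h1 L c' c P dk h g hg => by
  have lo : ∀ (B : Bs) (c : Ch L), B.tm c ⁻¹' Ioo 0 1 ⊆ B.A c := fun B c x hx =>
    Or.inr (Or.inl (by linarith [hx.2]))
  have hi : ∀ (B : Bs) (c : Ch L), B.tm c ⁻¹' Ioo L (L + 1) ⊆ B.A c := fun B c x hx =>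
    Or.inr (Or.inr (by linarith [hx.1]))
  have tL : (L : ℝ) + 1 / 2 ∈ Ioo (L : ℝ) (L + 1) := by constructor <;> linarith
  obtain ⟨f, f1, f2⟩ := lift1 hp hbr h1 h isOpen_Ioo (convex_Ioo _ _) tL (hi B' c') (f := g)
    (hg.src ▸ g.contMDiffOn_toFun.continuousOn)
    fun x hx => lo B c (hg.tgt ▸ g.map_source (hg.src ▸ hx))
  obtain ⟨k, k1, k2⟩ := lift1 hp hbr h1 h isOpen_Ioo (convex_Ioo (0 : ℝ) 1) (t := 1 / 2)
    (by constructor <;> norm_num) (lo B' c') (f := g.symm)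
    (hg.tgt ▸ g.contMDiffOn_invFun.continuousOn)
    fun x hx => hi B c (hg.src ▸ g.map_target (hg.tgt ▸ hx))
  have s1 : MapsTo P (B'.tm c' ⁻¹' Ioo L (L + 1)) g.source := fun x hx => by
    rwa [hg.src, mem_preimage, h.tm x (hi _ _ hx)]
  have s2 : MapsTo P (B'.tm c' ⁻¹' Ioo 0 1) g.target := fun x hx => by
    rwa [hg.tgt, mem_preimage, h.tm x (lo _ _ hx)]
  have f3 : MapsTo f (B'.tm c' ⁻¹' Ioo L (L + 1)) (B'.tm c' ⁻¹' Ioo 0 1) := fun x hx => by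
    rw [mem_preimage, ← h.tm _ (f2 x hx).1, (f2 x hx).2, ← mem_preimage, ← hg.tgt]
    exact g.map_source (s1 hx)
  have k3 : MapsTo k (B'.tm c' ⁻¹' Ioo 0 1) (B'.tm c' ⁻¹' Ioo L (L + 1)) := fun x hx => by
    rw [mem_preimage, ← h.tm _ (k2 x hx).1, (k2 x hx).2, ← mem_preimage, ← hg.src]
    exact g.map_target (s2 hx)
  obtain ⟨μ, m1, m2⟩ := deck h (conn_win B' c' isOpen_Ioo (convex_Ioo _ _)) (hi B' c') (k1.comp f1 f3)
    fun x hx => ⟨(k2 _ (f3 hx)).1, by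
      rw [comp_apply, (k2 _ (f3 hx)).2, (f2 x hx).2]; exact g.left_inv (s1 hx)⟩
  obtain ⟨ν, n1, n2⟩ := deck h (conn_win B' c' isOpen_Ioo (convex_Ioo _ _)) (lo B' c') (f1.comp k1 k3)
    fun x hx => ⟨(f2 _ (k3 hx)).1, by
      rw [comp_apply, (f2 _ (k3 hx)).2, (k2 x hx).2]; exact g.right_inv (s2 hx)⟩
  have o1 : IsOpen (B'.tm c' ⁻¹' Ioo L (L + 1)) := isOpen_Ioo.preimage B'.T.continuous_time
  have l1 : ∀ x ∈ B'.tm c' ⁻¹' Ioo L (L + 1), IsLocalDiffeomorphAt (𝓡 4) (𝓡 4) ∞ f x := fun x hx =>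
    Glue52.ld_of_comp_left (h.ld _ (f2 x hx).1) (f1.continuousAt (o1.mem_nhds hx))
      (Glue52.ld_congr ((h.ld x (hi _ _ hx)).comp _ _ (ld_pd g (s1 hx)))
        (eventually_of_mem (o1.mem_nhds hx) fun y hy => (f2 y hy).2))
  have i1 : ∀ μ : Circle, μ ^ p = 1 → μ⁻¹ ^ p = 1 := fun μ e => by rw [inv_pow, e, inv_one]
  obtain ⟨q, hq⟩ := B'.T.dense_Ex.nonempty
  refine ⟨pdOn o1 ⟨_, ((pre_win B' c' _).ge ⟨(q, _), ⟨hq, tL⟩, rfl⟩).1⟩ l1 fun x hx y hy e => ?_,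
    ⟨rfl, f3.image_subset.antisymm fun y hy => ?_, fun x hx => ?_, ?_⟩, fun x hx => (f2 x hx).2⟩
  · have a := congrArg (dk μ⁻¹ ∘ k) e
    have b := fun x hx => dk_inv h (i1 μ m1) (hi B' c' (a := x) hx)
    simp only [inv_inv] at b
    rwa [show (dk μ⁻¹ ∘ k) (f x) = _ from congrArg (dk μ⁻¹) (m2 x hx), b x hx,
      show (dk μ⁻¹ ∘ k) (f y) = _ from congrArg (dk μ⁻¹) (m2 y hy), b y hy] at a
  · have a := h.dk_mem _ (i1 ν n1) y (lo _ _ hy)
    have b : dk ν⁻¹ y ∈ B'.tm c' ⁻¹' Ioo 0 1 := by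
      rwa [mem_preimage, ← h.tm _ a.1, a.2, h.tm y (lo _ _ hy)]
    exact ⟨_, k3 b, (n2 _ b).trans (dk_inv h n1 (lo _ _ hy))⟩
  · show B'.tm c' (f x) = _
    rw [← h.tm _ (f2 x hx).1, (f2 x hx).2, hg.tm _ (s1 hx), h.tm x (hi _ _ hx)]
  · exact Pos.of_comp_left (f := P) ((hg.pos.comp (h.pos.mono (hi B' c')) (fun _ => ld_pd g)
      (fun x hx => h.ld x (hi _ _ hx)) s1).congr o1 fun y hy => (f2 y hy).2) h.pos h.ld l1
      fun x hx => (f2 x hx).1

end Crest.Agent.X212.Lft9
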